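import Vale.Agent.P084.InfDim.Tingley

/-!
Tingley's problem has an affirmative answer: every real normed space has the Mazur-Ulam property.
-/

namespace Vale.Agent.Results.P084.TingleyProblem

universe u v

theorem result :
    ∀ (X : Type u) [NormedAddCommGroup X] [NormedSpace ℝ X]
      (Y : Type v) [NormedAddCommGroup Y] [NormedSpace ℝ Y]
      (f : Metric.sphere (0 : X) 1 → Metric.sphere (0 : Y) 1),
        Isometry f → Function.Surjective f →
          ∃ T : X ≃ₗᵢ[ℝ] Y, ∀ x : Metric.sphere (0 : X) 1, T (x : X) = (f x : Y) := by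
  intro X _ _ Y _ _ f hf hsurj
  exact Vale.Agent.P084.InfDim.tingley f hf hsurj

end Vale.Agent.Results.P084.TingleyProblem
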